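import Vale.Agent.P139.B.MisA
import Vale.Agent.P139.D
import Vale.Agent.P084.Brouwer

/-! P139 B/Mir: Poincare-Miranda on a rectangle and the blending argument.
Plan: `b_miranda`: `c p = (max x0 (min p.1 x1), max y0 (min p.2 y1))`,
`Vale.Agent.P084.brouwer_bounded` for `p ↦ c p - (f (c p), g (c p))` on `ℝ × ℝ` (bounded by
compactness); at a fixed point `p - c p = -(f, g) (c p)`, the signs force `p = c p`.
`b_blend`: `u v c` from `mis_main`, `B = ‖u‖ + ‖v‖ + 1`, `η = c / (4 B)`, `τ'` from `b_mis_unif η`,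
`τ = min (τ'/2) ((Xhi - Xlo)/8)`; `T' p = max (T p) Xlo`, weight
`t p = max 0 (min 1 (min ((T p - Xlo)/τ) ((Xhi - τ - T p)/τ)))`, which vanishes unless
`Xlo < T p < Xhi - τ`; `Ψ p = Mis (T' p) p.2 + (if p ∈ S then t p * (D p - Mis (T p) p.2) else 0)`
is continuous on the rectangle (`ContinuousOn.union_of_isClosed` for `S` and
`{T ≤ Xlo} ∪ {T ≥ Xhi - τ}`), `‖Ψ - Mis (T' p) p.2‖ ≤ η`. A zero of `(re (u Ψ), re (v Ψ))` is a zero
of `Ψ` since `im (u conj v) ≠ 0`; if `t p < 1` then `T' p` is within `2 τ` of `Xlo` or `Xhi` and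
`re (u Ψ) ≠ 0`; so `t p = 1`, `p ∈ S`, `T' p = T p`, `D p = 0`. -/

noncomputable section

open MeasureTheory Filter Topology Set Complex
open scoped ComplexConjugate ContDiff

namespace Vale.Agent.P139

theorem b_mir_clamp {a b x s : ℝ} (hab : a ≤ b) (h : max a (min x b) - s = x)
    (h1 : max a (min x b) = a → s < 0) (h2 : max a (min x b) = b → 0 < s) : s = 0 := by
  rcases lt_or_ge x a with k | k
  · have e : max a (min x b) = a := max_eq_left ((min_le_left _ _).trans k.le)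
    linarith [h1 e]
  · rcases lt_or_ge b x with k' | k'
    · have e : max a (min x b) = b := by rw [min_eq_right k'.le, max_eq_right hab]
      linarith [h2 e]
    · rw [min_eq_left k', max_eq_right k] at h
      linarith

theorem b_miranda {f g : ℝ × ℝ → ℝ} {x0 x1 y0 y1 : ℝ} (hx : x0 ≤ x1) (hy : y0 ≤ y1)
    (hf : ContinuousOn f (Icc x0 x1 ×ˢ Icc y0 y1)) (hg : ContinuousOn g (Icc x0 x1 ×ˢ Icc y0 y1))
    (h1 : ∀ y ∈ Icc y0 y1, f (x0, y) < 0 ∧ 0 < f (x1, y))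
    (h2 : ∀ x ∈ Icc x0 x1, g (x, y0) < 0 ∧ 0 < g (x, y1)) :
    ∃ p ∈ Icc x0 x1 ×ˢ Icc y0 y1, f p = 0 ∧ g p = 0 := by
  set c : ℝ × ℝ → ℝ × ℝ := fun p => (max x0 (min p.1 x1), max y0 (min p.2 y1)) with hc
  have cc : Continuous c := by rw [hc]; fun_prop
  have cm : ∀ p, c p ∈ Icc x0 x1 ×ˢ Icc y0 y1 := fun p =>
    ⟨⟨le_max_left _ _, max_le hx (min_le_right _ _)⟩, le_max_left _ _, max_le hy (min_le_right _ _)⟩
  have hF : ContinuousOn (fun p : ℝ × ℝ => p - (f p, g p)) (Icc x0 x1 ×ˢ Icc y0 y1) :=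
    continuousOn_id.sub (hf.prodMk hg)
  obtain ⟨B, hB⟩ := (isCompact_Icc.prod isCompact_Icc).exists_bound_of_continuousOn hF
  obtain ⟨p, hp⟩ := Vale.Agent.P084.brouwer_bounded (hF.comp_continuous cc cm) fun p => hB _ (cm p)
  refine ⟨c p, cm p, b_mir_clamp hx (congrArg Prod.fst hp) (fun e => ?_) (fun e => ?_),
    b_mir_clamp hy (congrArg Prod.snd hp) (fun e => ?_) fun e => ?_⟩
  · simp only [hc, e]; exact (h1 _ (cm p).2).1
  · simp only [hc, e]; exact (h1 _ (cm p).2).2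
  · simp only [hc, e]; exact (h2 _ (cm p).1).1
  · simp only [hc, e]; exact (h2 _ (cm p).1).2

/-- the parameter rectangle -/
def Rec : Set (ℝ × ℝ) := Icc (1 / 2 : ℝ) 1 ×ˢ Icc βlo βhi

theorem b_mir_zero {u v z : ℂ} (h : (u * conj v).im ≠ 0) (h1 : (u * z).re = 0)
    (h2 : (v * z).re = 0) : z = 0 := by
  simp only [mul_re, mul_im, conj_re, conj_im] at h h1 h2
  apply Complex.ext
  · refine (mul_eq_zero.1 (?_ : (u.re * -v.im + u.im * v.re) * z.re = 0)).resolve_left h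
    linear_combination (-v.im) * h1 + u.im * h2
  · refine (mul_eq_zero.1 (?_ : (u.re * -v.im + u.im * v.re) * z.im = 0)).resolve_left h
    linear_combination (-v.re) * h1 + u.re * h2

theorem b_mir_re {u z w : ℂ} {η : ℝ} (h : ‖z - w‖ ≤ η) : |(u * z).re - (u * w).re| ≤ ‖u‖ * η := by
  rw [← sub_re, ← mul_sub]
  exact (abs_re_le_norm _).trans (by rw [norm_mul]; gcongr)

theorem b_blend : ∃ η τ : ℝ, 0 < η ∧ 0 < τ ∧ ∀ (T : ℝ × ℝ → ℝ) (D : ℝ × ℝ → ℂ),
    ContinuousOn T Rec → (∀ p ∈ Rec, T p ≤ Xhi) →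
    (∀ β ∈ Icc βlo βhi, T (1 / 2, β) ≤ Xlo ∧ T (1, β) = Xhi) →
    ContinuousOn D {p | p ∈ Rec ∧ T p ∈ Icc Xlo (Xhi - τ)} →
    (∀ p ∈ Rec, T p ∈ Icc Xlo (Xhi - τ) → ‖D p - Mis (T p) p.2‖ ≤ η) →
    ∃ p ∈ Rec, T p ∈ Icc Xlo (Xhi - τ) ∧ D p = 0 := by
  obtain ⟨u, v, c, hc, huv, hu, hv⟩ := mis_main
  set η := c / (4 * (‖u‖ + ‖v‖ + 1)) with hη
  have η0 : 0 < η := by positivity
  have η1 : (‖u‖ + ‖v‖ + 1) * η = c / 4 := by rw [hη]; field_simp
  have ηu : ‖u‖ * η ≤ c / 4 := by nlinarith [norm_nonneg v]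
  have ηv : ‖v‖ * η ≤ c / 4 := by nlinarith [norm_nonneg u]
  obtain ⟨τ', hτ', HU⟩ := b_mis_unif η0
  have hlo : (2 : ℝ) ≤ Xlo := by unfold Xlo; norm_num
  have hhi : Xhi ≤ 3 := by unfold Xhi; norm_num
  have hlh : Xlo ≤ Xhi := by unfold Xlo Xhi; norm_num
  have hβ : βlo ≤ βhi := by unfold βlo βhi; norm_num
  refine ⟨η, τ' / 2, η0, by positivity, fun T D cT hT hb cD hD => ?_⟩
  set τ := τ' / 2 with hτ
  have τ0 : 0 < τ := by positivity
  set S := {p | p ∈ Rec ∧ T p ∈ Icc Xlo (Xhi - τ)} with hS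
  set t : ℝ × ℝ → ℝ := fun p => max 0 (min 1 (min ((T p - Xlo) / τ) ((Xhi - τ - T p) / τ))) with ht
  have ct : ContinuousOn t Rec := ContinuousOn.sup continuousOn_const (ContinuousOn.inf continuousOn_const
    (((cT.sub continuousOn_const).div_const _).inf ((continuousOn_const.sub cT).div_const _)))
  have t0 : ∀ p, T p ≤ Xlo ∨ Xhi - τ ≤ T p → t p = 0 := fun p hp => by
    refine max_eq_left ((min_le_right _ _).trans ?_)
    rcases hp with hp | hp
    · exact (min_le_left _ _).trans (div_nonpos_of_nonpos_of_nonneg (by linarith) τ0.le)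
    · exact (min_le_right _ _).trans (div_nonpos_of_nonpos_of_nonneg (by linarith) τ0.le)
  have t1 : ∀ p, |t p| ≤ 1 := fun p => by
    rw [abs_of_nonneg (le_max_left _ _)]
    exact max_le zero_le_one (min_le_left _ _)
  set T' : ℝ × ℝ → ℝ := fun p => max (T p) Xlo with hT'
  have mT' : ∀ p ∈ Rec, T' p ∈ Icc Xlo Xhi := fun p hp => ⟨le_max_right _ _, max_le (hT p hp) hlh⟩
  have cM : ContinuousOn (fun p => Mis (T' p) p.2) Rec :=
    b_mis_cont.comp (f := fun p : ℝ × ℝ => (T' p, p.2))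
      ((cT.sup continuousOn_const).prodMk continuousOn_snd) fun p hp => by
        have := (mT' p hp).1
        show 0 < T' p
        linarith
  set E : ℝ × ℝ → ℂ := fun p => (t p : ℂ) * (D p - Mis (T' p) p.2) with hE
  have cR : IsClosed Rec := isClosed_Icc.prod isClosed_Icc
  have cE : ContinuousOn E Rec := by
    have c1 : IsClosed S := cT.preimage_isClosed_of_isClosed cR isClosed_Icc
    have c2 : IsClosed (Rec ∩ T ⁻¹' (Iic Xlo ∪ Ici (Xhi - τ))) :=
      cT.preimage_isClosed_of_isClosed cR (isClosed_Iic.union isClosed_Ici)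
    have c3 : ContinuousOn E S :=
      (continuous_ofReal.comp_continuousOn (ct.mono fun p hp => hp.1)).mul
        (cD.sub (cM.mono fun p hp => hp.1))
    have c4 : ContinuousOn E (Rec ∩ T ⁻¹' (Iic Xlo ∪ Ici (Xhi - τ))) :=
      (continuousOn_const (c := (0 : ℂ))).congr fun p hp => by simp [hE, t0 p hp.2]
    refine (c3.union_of_isClosed c4 c1 c2).mono fun p hp => ?_
    rcases le_total (T p) Xlo with k | k
    · exact Or.inr ⟨hp, Or.inl k⟩
    · rcases le_total (T p) (Xhi - τ) with k' | k'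
      · exact Or.inl ⟨hp, k, k'⟩
      · exact Or.inr ⟨hp, Or.inr k'⟩
  have bE : ∀ p ∈ Rec, ‖Mis (T' p) p.2 + E p - Mis (T' p) p.2‖ ≤ η := fun p hp => by
    rw [add_sub_cancel_left]
    by_cases k : T p ≤ Xlo ∨ Xhi - τ ≤ T p
    · simp [hE, t0 p k, η0.le]
    · push Not at k
      have e : T' p = T p := max_eq_left k.1.le
      simp only [hE, e, norm_mul, norm_real, Real.norm_eq_abs]
      exact (mul_le_of_le_one_left (norm_nonneg _) (t1 p)).trans (hD p hp ⟨k.1.le, k.2.le⟩)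
  have cΨ := cM.add cE
  obtain ⟨p, hp, z1, z2⟩ := b_miranda (f := fun p => (u * (Mis (T' p) p.2 + E p)).re)
    (g := fun p => (v * (Mis (T' p) p.2 + E p)).re) (x0 := 1 / 2) (x1 := 1) (by norm_num) hβ
    (continuous_re.comp_continuousOn (continuousOn_const.mul cΨ))
    (continuous_re.comp_continuousOn (continuousOn_const.mul cΨ))
    (fun β hβ => by
      have k1 := abs_le.1 (b_mir_re (u := u) (bE (1 / 2, β) ⟨⟨le_rfl, by norm_num⟩, hβ⟩))
      have k2 := abs_le.1 (b_mir_re (u := u) (bE (1, β) ⟨⟨by norm_num, le_rfl⟩, hβ⟩))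
      have e1 : T' (1 / 2, β) = Xlo := max_eq_right (hb β hβ).1
      have e2 : T' (1, β) = Xhi := by simp only [hT', (hb β hβ).2]; exact max_eq_left hlh
      have := hu β hβ
      simp only [e1, e2] at k1 k2 ⊢
      constructor <;> linarith [k1.2, k2.1, this.1, this.2])
    (fun x hx => by
      have m1 : (x, βlo) ∈ Rec := ⟨hx, le_rfl, hβ⟩
      have m2 : (x, βhi) ∈ Rec := ⟨hx, hβ, le_rfl⟩
      have k1 := abs_le.1 (b_mir_re (u := v) (bE _ m1))
      have k2 := abs_le.1 (b_mir_re (u := v) (bE _ m2))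
      have := (hv _ (mT' _ m1)).1
      have := (hv _ (mT' _ m2)).2
      constructor <;> linarith [k1.2, k2.1])
  have z3 := b_mir_zero huv z1 z2
  have k1 := abs_le.1 (b_mir_re (u := u) (bE p hp))
  have m1 := mT' p hp
  have m2 : T' p ∈ Icc (2 : ℝ) 3 := ⟨hlo.trans m1.1, m1.2.trans hhi⟩
  have k2 : Xlo + τ ≤ T p := by
    by_contra k
    have k3 : |T' p - Xlo| ≤ τ' := by
      rw [abs_of_nonneg (by linarith [m1.1])]
      have : T' p ≤ Xlo + τ := max_le (not_le.1 k).le (by linarith)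
      linarith
    have k4 := abs_le.1 (b_mir_re (u := u) (HU _ m2 Xlo ⟨hlo, hlh.trans hhi⟩ p.2 hp.2 k3))
    linarith [k1.1, k4.2, (hu p.2 hp.2).1]
  have e : T' p = T p := max_eq_left (by linarith)
  have k3 : T p ≤ Xhi - 2 * τ := by
    by_contra k
    have k3 : |T' p - Xhi| ≤ τ' := by
      rw [abs_of_nonpos (by linarith [m1.2]), e]
      linarith [not_le.1 k]
    have k4 := abs_le.1 (b_mir_re (u := u) (HU _ m2 Xhi ⟨hlo.trans hlh, hhi⟩ p.2 hp.2 k3))
    linarith [k1.2, k4.1, (hu p.2 hp.2).2]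
  have k4 : t p = 1 := by
    have a1 : 1 ≤ (T p - Xlo) / τ := by rw [le_div_iff₀ τ0]; linarith
    have a2 : 1 ≤ (Xhi - τ - T p) / τ := by rw [le_div_iff₀ τ0]; linarith
    simp only [ht]
    rw [min_eq_left (le_min a1 a2), max_eq_right zero_le_one]
  refine ⟨p, hp, ⟨by linarith, by linarith⟩, ?_⟩
  simpa [hE, k4] using z3

end Vale.Agent.P139
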