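import Vale.Agent.P139.B.Core
import Vale.Agent.P139.B.Mir
import Vale.Agent.P139.B.Smooth
import Vale.Agent.P139.B.Ext

/-! P139 B/Main: assembly of `prof_main`. -/

noncomputable section

open MeasureTheory Filter Topology Set Complex
open scoped ComplexConjugate ContDiff

namespace Vale.Agent.P139

theorem b_build {m : ℕ} {β Y X0 ε ε1 ε2 C κ : ℝ} {q : ℝ → ℂ} (hs : Std m β q)
    (hA : Adm m β q X0 κ) (hI : InGood m β q Y X0 ε1) (hE : ExtGood m β q X0 ε2 C)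
    (hε1 : 0 < ε1) (h1 : ε1 ≤ ε) (h2 : ε2 ≤ ε) (hX : X0 ∈ Icc Xlo Xhi) (ha : aa m ≤ ε)
    (hY : Y ∈ Icc (X0 - ε) X0) : ∃ Q : Prof m, Q.Good X0 ε C := by
  have hP : ∀ X, 0 ≤ X → Pu m q X ≤ 1 := fun X hX => by
    rcases le_total X X0 with h | h
    · exact hA.inner X ⟨hX, h⟩
    · exact hE.P_le X h
  refine ⟨⟨β, q, le_trans (by norm_num) hs.big, b_smooth hs.isol hP, b_ode hs.isol hP,
    fun X hX => b_ne hs.isol hX, hE.jet, hE.symb⟩, ?_⟩
  refine ⟨⟨hX, hs.β_mem⟩, ha, fun X hX => ?_, ⟨Y, hY, fun X hX => ?_⟩, fun X hX => ?_, ?_, hP,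
    fun j hj X hX => ?_, hE.jets, hE.low⟩
  · exact ⟨(hI.near X hX).1.trans h1, (hI.near X hX).2.trans h1⟩
  · exact (one_div_le_one_div_of_le hε1 h1).trans (hI.core X hX)
  · exact (hI.mono X hX).trans h1
  · exact hI.pres.trans h1
  · exact ⟨(hE.ext j hj X hX).1.trans h2, (hE.ext j hj X hX).2.trans h2⟩

theorem b_main : ∃ C : ℝ, 0 < C ∧ ∀ ε : ℝ, 0 < ε →
    ∃ (m : ℕ) (Q : Prof m) (X0 : ℝ), Q.Good X0 ε C := by
  obtain ⟨C, K, hC, hK, HE⟩ := b_ext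
  refine ⟨C, hC, fun ε hε => ?_⟩
  obtain ⟨η, τ, hη, hτ, HB⟩ := b_blend
  obtain ⟨τ', hτ', HU⟩ := b_mis_unif (show 0 < η / 3 by positivity)
  set ε1 := min (min ε 1) (η / (3 * K)) with hε1
  have pε1 : 0 < ε1 := lt_min (lt_min hε one_pos) (by positivity)
  obtain ⟨h0, κ, ph0, hh1, hh2, hκ, m1, hm1, HC⟩ := b_core pε1 (lt_min hτ hτ')
  obtain ⟨m2, HE2⟩ := HE κ hκ (min ε (η / 3)) (lt_min hε (by positivity))
  obtain ⟨m3, -, Ha⟩ := b_aa_small hε
  set m := max m1 (max m2 m3) with hm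
  have e1 : m1 ≤ m := le_max_left _ _
  have e2 : m2 ≤ m := (le_max_left _ _).trans (le_max_right _ _)
  have e3 : m3 ≤ m := (le_max_right _ _).trans (le_max_right _ _)
  obtain ⟨q, hq, hq', HF⟩ := b_family m
  have hne : ∀ p ∈ Rec, p.1 ≠ 0 := fun p hp => by
    have := hp.1.1
    intro h; rw [h] at this; norm_num at this
  have hstd : ∀ p ∈ Rec, Std m p.2 (q p) := fun p hp =>
    ⟨(HF p (hne p hp) hp.2).1, hm1.trans e1, hp.2⟩
  set T : ℝ × ℝ → ℝ := fun p => Xc m p.2 (q p) with hT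
  have cT : ContinuousOn T Rec := b_xc_cont hq hstd
  set S : Set (ℝ × ℝ) := {p | p ∈ Rec ∧ T p ∈ Icc Xlo (Xhi - τ)} with hS
  have hlo : (2 : ℝ) ≤ Xlo := by unfold Xlo; norm_num
  have hhi : Xhi ≤ 3 := by unfold Xhi; norm_num
  have hτ1 : h0 ≤ τ := hh1.trans (min_le_left _ _)
  have hτ2 : h0 ≤ τ' := hh1.trans (min_le_right _ _)
  have hcr : ∀ p ∈ S, Cr m p.2 (q p) (T p) := fun p hp =>
    b_xc_cr (hstd p hp.1) (by have := hp.2.1; show 0 < T p; linarith)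
      (by have := hp.2.2; show T p < Xhi; linarith)
  have hcore : ∀ p ∈ S, Adm m p.2 (q p) (T p + h0) κ ∧ InGood m p.2 (q p) (T p) (T p + h0) ε1 :=
    fun p hp => HC m e1 p.2 (T p) (q p) (hcr p hp) (hlo.trans hp.2.1)
      (by have := hp.2.2; linarith)
  obtain ⟨M, cM, HM⟩ := HE2 m e2 S (fun p => p.2) (fun p => T p + h0) q continuousOn_snd
    ((cT.mono fun p hp => hp.1).add continuousOn_const) hq hq' fun p hp => (hcore p hp).1
  have hbox : ∀ β ∈ Icc βlo βhi, ((1 / 2 : ℝ), β) ∈ Rec ∧ ((1 : ℝ), β) ∈ Rec := fun β hβ =>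
    ⟨⟨⟨le_rfl, by norm_num⟩, hβ⟩, ⟨⟨by norm_num, le_rfl⟩, hβ⟩⟩
  obtain ⟨p, hp, hpT, hp0⟩ := HB T M cT (fun p hp => (b_xc_mem (hstd p hp)).2)
    (fun β hβ => by
      obtain ⟨g1, g2⟩ := hbox β hβ
      constructor
      · have := b_xc_half (hstd _ g1) (HF _ (hne _ g1) hβ).2
        show Xc m β (q (1 / 2, β)) ≤ Xlo
        rw [this]; linarith
      · exact b_xc_one (hstd _ g2) (by simpa using (HF _ (hne _ g2) hβ).2))
    cM (fun p hp hpT => by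
      have hpS : p ∈ S := ⟨hp, hpT⟩
      obtain ⟨A, G⟩ := hcore p hpS
      have g1 := (HM p hpS).1
      have g2 := HU (T p + h0) A.X0_mem (T p) ⟨hlo.trans hpT.1, by have := hpT.2; linarith⟩ p.2 hp.2
        (by rw [add_sub_cancel_left, abs_of_pos ph0]; exact hτ2)
      have hX0 : T p + h0 ∈ Icc 0 (T p + h0) := ⟨by have := A.X0_mem.1; linarith, le_rfl⟩
      obtain ⟨n1, n2⟩ := G.near _ hX0
      have k2 : ε1 ≤ η / (3 * K) := min_le_right _ _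
      have n5 : K * ‖deriv (q p) (T p + h0) / q p (T p + h0)‖ ≤ η / 3 := by
        rw [le_div_iff₀ (by positivity)] at k2
        nlinarith
      have n6 : min ε (η / 3) ≤ η / 3 := min_le_right _ _
      calc ‖M p - Mis (T p) p.2‖
          ≤ ‖M p - Mis (T p + h0) p.2‖ + ‖Mis (T p + h0) p.2 - Mis (T p) p.2‖ :=
            norm_sub_le_norm_sub_add_norm_sub _ _ _
        _ ≤ η := by linarith)
  have hpS : p ∈ S := ⟨hp, hpT⟩
  obtain ⟨A, G⟩ := hcore p hpS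
  have k1 : ε1 ≤ ε := (min_le_left _ _).trans (min_le_left _ _)
  obtain ⟨Q, hQ⟩ := b_build (hstd p hp) A G ((HM p hpS).2 hp0) pε1 k1 (min_le_left _ _)
    ⟨by have := hpT.1; linarith, by have := hpT.2; linarith⟩ (Ha m e3)
    ⟨by linarith, by linarith⟩
  exact ⟨m, Q, _, hQ⟩

end Vale.Agent.P139
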